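import Vale.Agent.P197.Main
import Vale.Agent.P197.Bridge
import Vale.Agent.P197.Kron

/-!
# Tensor squares of staircase Specht modules
-/

namespace Vale.Agent.Results.P197.SaxlConjecture

open Vale.Agent.P197

/-- The staircase has `m (m + 1) / 2` cells. -/
theorem card_staircase (m : ℕ) : (staircase m).card = m * (m + 1) / 2 := by
  have h : (staircase m).card = Fintype.card (Cell m) := by
    rw [Fintype.card_congr (cellEquiv m), Fintype.card_coe]
  have := card_cell m
  omega

theorem result (m : ℕ) (ν : YoungDiagram) (hν : ν.card = (staircase m).card) :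
    0 < kron (staircase m).card (staircase m) (staircase m) ν := by
  rw [card_staircase] at hν ⊢
  obtain ⟨φ, h0, hφ⟩ := saxl_of_good m (good_all m) ν hν
  exact kron_pos φ h0 hφ

end Vale.Agent.Results.P197.SaxlConjecture
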